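import Mathlib
import Vale.Agent.P052.B63.Final

/-!
# Borsuk's conjecture fails in dimension 63

There is a finite set of points of `ℝ ^ 63`, of positive diameter, which is not the union of
`64 = 63 + 1` subsets of strictly smaller diameter.

The set has 321 points.  Let `Γ` be the `G₂(4)` graph, strongly regular with parameters
`(416, 100, 36, 20)`, in its 65-dimensional eigenspace representation (Bondarenko).  320 of its
vertices lie in a linear subspace `K` of codimension two.  One more vertex `a` is projected to `K`
and rescaled by `t = (√222 - 1) / 13`, which puts it at distance exactly `diam` from the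
non-neighbours of `a` and closer to the neighbours of `a`.  So sets of smaller diameter are cliques
of `Γ`, which have at most 5 vertices, and `321 > 5 * 64`.

The data (the integer matrix `G` with `Gᵀ G = 96 G`, `trace G = 96 * 63`) and the clique search are
checked by kernel evaluation in the files under `Vale/Agent/P052/B63`.
-/

namespace Vale.Agent.Results.P052.Dim63

theorem result :
    ∃ X : Set (EuclideanSpace ℝ (Fin 63)), X.Finite ∧ 0 < Metric.diam X ∧
      ¬ ∃ P : Fin 64 → Set (EuclideanSpace ℝ (Fin 63)), (⋃ i, P i) = X ∧
        ∀ i, Metric.diam (P i) < Metric.diam X :=
  Vale.Agent.P052.B63.borsuk63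

end Vale.Agent.Results.P052.Dim63
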