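import Mathlib
import Vale.Agent.P052.B63.Final

/-!
# Borsuk's conjecture fails in dimension 63: colouring form

There is a finite set `X` of points of `ℝ ^ 63` and a real `δ > 0` such that all distances in `X`
are at most `δ`, and every colouring of the points with `64 = 63 + 1` colours has two points of `X`
of the same colour at distance exactly `δ`.
-/

namespace Vale.Agent.Results.P052.Dim63Colouring

theorem result :
    ∃ (X : Finset (EuclideanSpace ℝ (Fin 63))) (δ : ℝ), 0 < δ ∧
      (∀ x ∈ X, ∀ y ∈ X, dist x y ≤ δ) ∧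
      ∀ c : EuclideanSpace ℝ (Fin 63) → Fin 64,
        ∃ x ∈ X, ∃ y ∈ X, c x = c y ∧ dist x y = δ := by
  classical
  obtain ⟨X0, hfin, hpos, hno⟩ := Vale.Agent.P052.B63.borsuk63
  set X : Finset (EuclideanSpace ℝ (Fin 63)) := hfin.toFinset with hX
  have hXc : (X : Set (EuclideanSpace ℝ (Fin 63))) = X0 := hfin.coe_toFinset
  have hmem : ∀ x, x ∈ X ↔ x ∈ X0 := fun x => hfin.mem_toFinset
  set δ := Metric.diam X0 with hδ
  have hle : ∀ x ∈ X, ∀ y ∈ X, dist x y ≤ δ := fun x hx y hy =>
    Metric.dist_le_diam_of_mem hfin.isBounded ((hmem x).mp hx) ((hmem y).mp hy)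
  refine ⟨X, δ, hpos, hle, fun c => ?_⟩
  by_contra hcon
  push Not at hcon
  apply hno
  refine ⟨fun i => {x | x ∈ X ∧ c x = i}, ?_, fun i => ?_⟩
  · ext x
    simp only [Set.mem_iUnion, Set.mem_setOf_eq]
    constructor
    · rintro ⟨i, hx, _⟩
      exact (hmem x).mp hx
    · intro hx
      exact ⟨c x, (hmem x).mpr hx, rfl⟩
  · set F := X.filter (fun x => c x = i) with hF
    have hset : {x | x ∈ X ∧ c x = i} = (F : Set (EuclideanSpace ℝ (Fin 63))) := by
      ext x; simp [hF]
    show Metric.diam {x | x ∈ X ∧ c x = i} < δ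
    rw [hset]
    by_cases hne : (F ×ˢ F).Nonempty
    · obtain ⟨p, hp, hmax⟩ := Finset.exists_max_image (F ×ˢ F) (fun p => dist p.1 p.2) hne
      have hp1 := Finset.mem_filter.mp (Finset.mem_product.mp hp).1
      have hp2 := Finset.mem_filter.mp (Finset.mem_product.mp hp).2
      have hlt : dist p.1 p.2 < δ :=
        lt_of_le_of_ne (hle _ hp1.1 _ hp2.1) (hcon _ hp1.1 _ hp2.1 (hp1.2.trans hp2.2.symm))
      refine lt_of_le_of_lt (Metric.diam_le_of_forall_dist_le dist_nonneg ?_) hlt
      intro x hx y hy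
      exact hmax (x, y) (Finset.mem_product.mpr ⟨Finset.mem_coe.mp hx, Finset.mem_coe.mp hy⟩)
    · have hFe : F = ∅ := by
        by_contra hcon2
        obtain ⟨x, hx⟩ := Finset.nonempty_iff_ne_empty.mpr hcon2
        exact hne ⟨(x, x), Finset.mem_product.mpr ⟨hx, hx⟩⟩
      rw [hFe]; simpa using hpos

end Vale.Agent.Results.P052.Dim63Colouring
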