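import Mathlib
import Vale.Agent.P052.B63.Final

/-!
# The least dimension in which Borsuk's conjecture fails is at most 63
-/

namespace Vale.Agent.Results.P052.LeastDimension

/-- Borsuk's conjecture in dimension `d`: every bounded set `Y` of `ℝ ^ d` of positive diameter is
a union of `d + 1` subsets of strictly smaller diameter. -/
def BorsukHolds (d : ℕ) : Prop :=
  ∀ Y : Set (EuclideanSpace ℝ (Fin d)), Bornology.IsBounded Y → 0 < Metric.diam Y →
    ∃ P : Fin (d + 1) → Set (EuclideanSpace ℝ (Fin d)), (⋃ i, P i) = Y ∧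
      ∀ i, Metric.diam (P i) < Metric.diam Y

theorem result : ¬ BorsukHolds 63 ∧ sInf {d : ℕ | ¬ BorsukHolds d} ≤ 63 := by
  have h : ¬ BorsukHolds 63 := by
    intro hB
    obtain ⟨X, hfin, hpos, hno⟩ := Vale.Agent.P052.B63.borsuk63
    exact hno (hB X hfin.isBounded hpos)
  exact ⟨h, Nat.sInf_le h⟩

end Vale.Agent.Results.P052.LeastDimension
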