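import Mathlib
import Vale.Agent.P052.Key
import Vale.Agent.P052.Comb
import Vale.Agent.P052.B63.Final

/-!
# Borsuk's problem: a counterexample in dimension 63, and no counterexample with at most `d + 4`
points in any dimension `d`
-/

namespace Vale.Agent.Results.P052.TwoSided

open Vale.Agent.P052

/-- Borsuk's conjecture holds, in every dimension `d`, for all point sets with at most `d + 4`
points. -/
theorem small_sets (d : ℕ) (X : Finset (EuclideanSpace ℝ (Fin d))) (hcard : X.card ≤ d + 4)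
    (hpos : 0 < Metric.diam (X : Set (EuclideanSpace ℝ (Fin d)))) :
    ∃ P : Fin (d + 1) → Set (EuclideanSpace ℝ (Fin d)),
      (X : Set (EuclideanSpace ℝ (Fin d))) = ⋃ i, P i ∧
      ∀ i, Metric.diam (P i) < Metric.diam (X : Set (EuclideanSpace ℝ (Fin d))) := by
  classical
  set δ := Metric.diam (X : Set (EuclideanSpace ℝ (Fin d))) with hδ
  have hbdd : Bornology.IsBounded (X : Set (EuclideanSpace ℝ (Fin d))) := X.finite_toSet.isBounded
  have hle : ∀ x ∈ X, ∀ y ∈ X, dist x y ≤ δ := fun x hx y hy =>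
    Metric.dist_le_diam_of_mem hbdd (Finset.mem_coe.mpr hx) (Finset.mem_coe.mpr hy)
  let s : EuclideanSpace ℝ (Fin d) → EuclideanSpace ℝ (Fin d) → Prop :=
    fun x y => x ≠ y ∧ dist x y < δ
  have hs : ∀ x y, s x y → s y x := fun x y h => ⟨h.1.symm, by rw [dist_comm]; exact h.2⟩
  have hirr : ∀ x, ¬ s x x := fun x h => h.1 rfl
  have hP : ∀ T ⊆ X, d + 2 ≤ T.card → ∃ x ∈ T, ∃ y ∈ T, ∃ z ∈ T, y ≠ z ∧ s x y ∧ s x z := by
    intro T hT hc
    apply cherry T δ hpos
    · rw [finrank_euclideanSpace_fin]; omega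
    · exact fun x hx y hy => hle x (hT hx) y (hT hy)
  obtain ⟨c, hc1, hc2⟩ := comb hs hirr X d hP hcard
  refine ⟨fun i => {x | x ∈ X ∧ c x = i}, ?_, ?_⟩
  · ext x
    simp only [Finset.mem_coe, Set.mem_iUnion, Set.mem_ofPred_eq]
    constructor
    · intro hx
      exact ⟨⟨c x, hc1 x hx⟩, hx, rfl⟩
    · rintro ⟨i, hx, _⟩
      exact hx
  · intro i
    set F := X.filter (fun x => c x = i) with hF
    have hset : {x | x ∈ X ∧ c x = (i : ℕ)} = (F : Set (EuclideanSpace ℝ (Fin d))) := by
      ext x; simp [hF]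
    show Metric.diam {x | x ∈ X ∧ c x = (i : ℕ)} < δ
    rw [hset]
    by_cases hne : (F ×ˢ F).Nonempty
    · obtain ⟨p, hp, hmax⟩ := Finset.exists_max_image (F ×ˢ F) (fun p => dist p.1 p.2) hne
      have hp1 : p.1 ∈ F := (Finset.mem_product.mp hp).1
      have hp2 : p.2 ∈ F := (Finset.mem_product.mp hp).2
      have hlt : dist p.1 p.2 < δ := by
        by_cases he : p.1 = p.2
        · rw [he, dist_self]; exact hpos
        · have h1 := Finset.mem_filter.mp hp1
          have h2 := Finset.mem_filter.mp hp2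
          exact (hc2 p.1 h1.1 p.2 h2.1 he (h1.2.trans h2.2.symm)).2
      refine lt_of_le_of_lt (Metric.diam_le_of_forall_dist_le dist_nonneg ?_) hlt
      intro x hx y hy
      exact hmax (x, y) (Finset.mem_product.mpr ⟨Finset.mem_coe.mp hx, Finset.mem_coe.mp hy⟩)
    · have hFe : F = ∅ := by
        by_contra hcon
        obtain ⟨x, hx⟩ := Finset.nonempty_iff_ne_empty.mpr hcon
        exact hne ⟨(x, x), Finset.mem_product.mpr ⟨hx, hx⟩⟩
      rw [hFe]; simpa using hpos


/-- (1) Borsuk's conjecture fails in dimension 63.  (2) In every dimension `d`, every set of at most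
`d + 4` points of positive diameter is a union of `d + 1` subsets of strictly smaller diameter. -/
theorem result :
    (∃ X : Set (EuclideanSpace ℝ (Fin 63)), X.Finite ∧ 0 < Metric.diam X ∧
      ¬ ∃ P : Fin 64 → Set (EuclideanSpace ℝ (Fin 63)), (⋃ i, P i) = X ∧
        ∀ i, Metric.diam (P i) < Metric.diam X) ∧
    (∀ (d : ℕ) (X : Finset (EuclideanSpace ℝ (Fin d))), X.card ≤ d + 4 →
      0 < Metric.diam (X : Set (EuclideanSpace ℝ (Fin d))) →
      ∃ P : Fin (d + 1) → Set (EuclideanSpace ℝ (Fin d)),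
        (X : Set (EuclideanSpace ℝ (Fin d))) = ⋃ i, P i ∧
        ∀ i, Metric.diam (P i) < Metric.diam (X : Set (EuclideanSpace ℝ (Fin d)))) :=
  ⟨Vale.Agent.P052.B63.borsuk63, small_sets⟩

end Vale.Agent.Results.P052.TwoSided
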